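import Vale.Agent.P352.BW.Defs
import Mathlib.Analysis.VonNeumannAlgebra.Basic

/-!
# P352 BW: cyclicity of the vacuum for the net, from the fields
-/

set_option linter.all false

noncomputable section

open MeasureTheory Filter Topology
open scoped ComplexConjugate InnerProductSpace BoundedContinuousFunction

namespace Vale.Agent.P352.BW

open UniformSpace (Completion)

variable {D : Type*} [NormedAddCommGroup D] [InnerProductSpace ℂ D]

/-- If the polynomials in a family `F` of operators affiliated to `M`, applied to `ξ`, are dense,
then `ξ` is cyclic for `M`. -/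
theorem cyc_of (M : VonNeumannAlgebra (Completion D)) (ξ : D) (F : Set (D → D))
    (hF : ∀ X ∈ F, Aff M X) (P : Submodule ℂ D)
    (hP : ∀ P' : Submodule ℂ D, ξ ∈ P' → (∀ X ∈ F, ∀ v ∈ P', X v ∈ P') → P ≤ P')
    (hPd : Dense (P : Set D)) :
    Dense {z | ∃ X ∈ M, X (ξ : Completion D) = z} := by
  set K0 : Submodule ℂ (Completion D) :=
    { carrier := {z | ∃ X ∈ M, X (ξ : Completion D) = z}
      add_mem' := by
        rintro _ _ ⟨X, hX, rfl⟩ ⟨Y, hY, rfl⟩
        exact ⟨X + Y, add_mem hX hY, rfl⟩
      zero_mem' := ⟨0, zero_mem M, rfl⟩
      smul_mem' := by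
        rintro c _ ⟨X, hX, rfl⟩
        exact ⟨c • X, M.toStarSubalgebra.smul_mem hX c, rfl⟩ } with hK0
  set K : Submodule ℂ (Completion D) := K0.topologicalClosure with hK
  haveI : CompleteSpace K := K0.isClosed_topologicalClosure.completeSpace_coe
  set e : Completion D →L[ℂ] Completion D := K.starProjection with he
  have hinv : ∀ y ∈ M, ∀ z ∈ K, y z ∈ K := by
    intro y hy z hz
    have h1 : K0 ≤ K.comap (y : Completion D →ₗ[ℂ] Completion D) := by
      rintro _ ⟨X, hX, rfl⟩
      exact K0.le_topologicalClosure ⟨y * X, mul_mem hy hX, rfl⟩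
    have h2 : IsClosed ((K.comap (y : Completion D →ₗ[ℂ] Completion D) : Submodule ℂ _) :
        Set (Completion D)) := K0.isClosed_topologicalClosure.preimage y.continuous
    exact K0.topologicalClosure_minimal h1 h2 hz
  have heM : e ∈ M.commutant := by
    rw [VonNeumannAlgebra.IsStarProjection.mem_iff isStarProjection_starProjection]
    intro y hy
    rw [VonNeumannAlgebra.commutant_commutant] at hy
    rw [Module.End.mem_invtSubmodule]
    intro z hz
    have hz' : z ∈ K := by simpa [e] using hz
    have := hinv y hy z hz'
    simpa [e] using this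
  have hfix : ∀ z : Completion D, e z = z ↔ z ∈ K := fun z => K.starProjection_eq_self_iff
  set P' : Submodule ℂ D :=
    { carrier := {v | (v : Completion D) ∈ K}
      add_mem' := fun {a b} ha hb => by
        show ((a + b : D) : Completion D) ∈ K
        rw [Completion.coe_add]
        exact K.add_mem ha hb
      zero_mem' := by
        show ((0 : D) : Completion D) ∈ K
        rw [Completion.coe_zero]
        exact K.zero_mem
      smul_mem' := fun c {a} ha => by
        show ((c • a : D) : Completion D) ∈ K
        rw [Completion.coe_smul]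
        exact K.smul_mem c ha } with hP'
  have hξ : ξ ∈ P' := K0.le_topologicalClosure ⟨1, one_mem M, rfl⟩
  have hle : P ≤ P' := by
    refine hP P' hξ fun X hX v hv => ?_
    obtain ⟨X', hXX', hA⟩ := hF X hX
    have hv' : e (v : Completion D) = (v : Completion D) := (hfix _).2 hv
    have h1 : ∀ w : D, (⟪(w : Completion D), ((X v : D) : Completion D)⟫_ℂ : ℂ) =
        ⟪(w : Completion D), e ((X v : D) : Completion D)⟫_ℂ := by
      intro w
      have h2 := hA e heM v w
      rw [hv'] at h2
      rw [← h2, Completion.inner_coe, Completion.inner_coe]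
      have h3 := congrArg (starRingEnd ℂ) (hXX' v w)
      rw [inner_conj_symm, inner_conj_symm] at h3
      exact h3
    have h4 : ∀ z : Completion D, (⟪z, ((X v : D) : Completion D)⟫_ℂ : ℂ) =
        ⟪z, e ((X v : D) : Completion D)⟫_ℂ := by
      intro z
      refine Completion.induction_on z ?_ h1
      exact isClosed_eq (continuous_id.inner continuous_const)
        (continuous_id.inner continuous_const)
    exact (hfix _).1 (ext_inner_left ℂ h4).symm
  have hKd : ∀ z : Completion D, z ∈ K := by
    intro z
    refine Completion.induction_on z K0.isClosed_topologicalClosure fun v => ?_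
    have hc : IsClosed {v : D | (v : Completion D) ∈ K} :=
      K0.isClosed_topologicalClosure.preimage (Completion.continuous_coe D)
    exact closure_minimal (fun v hv => hle hv) hc (hPd v)
  intro z
  exact hKd z

end Vale.Agent.P352.BW

end
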