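import Vale.Agent.P352.BW.Defs

/-!
# P352 BWT: block P, products
-/

set_option linter.all false

noncomputable section

open MeasureTheory Filter Topology
open scoped ComplexConjugate InnerProductSpace BoundedContinuousFunction

namespace Vale.Agent.P352.BW

open UniformSpace (Completion)

variable {D : Type*} [NormedAddCommGroup D] [InnerProductSpace ℂ D]

/-- **Step (4).** A unitary operator `Z` that fixes the cyclic vector `ξ` of the commutant of `M`,
normalises the commutant and fixes `ψ` and `X' ξ` fixes `X ψ`, for `X` affiliated to `M`. -/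
theorem prod_fix (M : VonNeumannAlgebra (Completion D)) (ξ : D)
    (Z : Completion D →L[ℂ] Completion D) (hZ : ∀ z w, ⟪Z z, Z w⟫_ℂ = ⟪z, w⟫_ℂ)
    (hZM : ∀ Y ∈ M.commutant, ∃ Y1 ∈ M.commutant, ∀ z, Z (Y1 z) = Y (Z z))
    (hξ : Z (ξ : Completion D) = (ξ : Completion D))
    (hd : Dense {z | ∃ Y ∈ M.commutant, Y (ξ : Completion D) = z}) (X X' : D → D)
    (hX : ∀ v w, inner ℂ (X v) w = inner ℂ v (X' w)) (hA : Aff M X)
    (hX' : Z ((X' ξ : D) : Completion D) = ((X' ξ : D) : Completion D)) (ψ : D)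
    (hψ : Z (ψ : Completion D) = (ψ : Completion D)) :
    Z ((X ψ : D) : Completion D) = ((X ψ : D) : Completion D) := by
  obtain ⟨X1, hX1, hA⟩ := hA
  obtain rfl : X1 = X' := by
    funext w
    refine ext_inner_left ℂ fun v => ?_
    rw [← hX1, ← hX]
  have hst : ∀ Y ∈ M.commutant, star Y ∈ M.commutant := fun Y hY => star_mem hY
  have hadj : ∀ (Y : Completion D →L[ℂ] Completion D) (z w : Completion D),
      (⟪star Y z, w⟫_ℂ : ℂ) = ⟪z, Y w⟫_ℂ := fun Y z w => by
    rw [ContinuousLinearMap.star_eq_adjoint, ContinuousLinearMap.adjoint_inner_left]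
  have hadj' : ∀ (Y : Completion D →L[ℂ] Completion D) (z w : Completion D),
      (⟪Y z, w⟫_ℂ : ℂ) = ⟪z, star Y w⟫_ℂ := fun Y z w => by
    rw [ContinuousLinearMap.star_eq_adjoint, ContinuousLinearMap.adjoint_inner_right]
  -- `⟪Y ξ, X v⟫ = ⟪Y X' ξ, v⟫` for `Y` in the commutant
  have key : ∀ Y ∈ M.commutant, ∀ v : D,
      (⟪Y (ξ : Completion D), ((X v : D) : Completion D)⟫_ℂ : ℂ) =
        ⟪Y ((X1 ξ : D) : Completion D), (v : Completion D)⟫_ℂ := by
    intro Y hY v
    rw [hadj', hadj', ← hA (star Y) (hst Y hY) v ξ]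
  have h1 : ∀ z ∈ {z | ∃ Y ∈ M.commutant, Y (ξ : Completion D) = z},
      (⟪z, Z ((X ψ : D) : Completion D)⟫_ℂ : ℂ) = ⟪z, ((X ψ : D) : Completion D)⟫_ℂ := by
    rintro z ⟨Y, hY, rfl⟩
    obtain ⟨Y1, hY1, hYe⟩ := hZM Y hY
    have e1 : Z (Y1 (ξ : Completion D)) = Y (ξ : Completion D) := by rw [hYe, hξ]
    rw [← e1, hZ, key Y1 hY1 ψ, ← hZ, hYe, hX', hψ, e1, key Y hY ψ]
  have h2 : ∀ z, (⟪z, Z ((X ψ : D) : Completion D)⟫_ℂ : ℂ) = ⟪z, ((X ψ : D) : Completion D)⟫_ℂ := by
    intro z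
    have hc : IsClosed {z : Completion D | (⟪z, Z ((X ψ : D) : Completion D)⟫_ℂ : ℂ) =
        ⟪z, ((X ψ : D) : Completion D)⟫_ℂ} :=
      isClosed_eq (continuous_id.inner continuous_const) (continuous_id.inner continuous_const)
    exact closure_minimal h1 hc (hd z)
  exact ext_inner_left ℂ h2

/-- **Step (4), closure form.** `Z` fixes the smallest set that contains `ξ` and is stable under the
family `F` of operators affiliated to `M`, whose adjoints are in `F`, if `Z X ξ = X ξ` for `X` in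
`F`. -/
theorem prod_one (M : VonNeumannAlgebra (Completion D)) (ξ : D)
    (Z : Completion D →L[ℂ] Completion D) (hZ : ∀ z w, ⟪Z z, Z w⟫_ℂ = ⟪z, w⟫_ℂ)
    (hZM : ∀ Y ∈ M.commutant, ∃ Y1 ∈ M.commutant, ∀ z, Z (Y1 z) = Y (Z z))
    (hξ : Z (ξ : Completion D) = (ξ : Completion D))
    (hd : Dense {z | ∃ Y ∈ M.commutant, Y (ξ : Completion D) = z}) (F : Set (D → D))
    (hF : ∀ X ∈ F, Aff M X) (hadj : ∀ X ∈ F, ∃ X' ∈ F, ∀ v w, inner ℂ (X v) w = inner ℂ v (X' w))
    (h1 : ∀ X ∈ F, Z ((X ξ : D) : Completion D) = ((X ξ : D) : Completion D))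
    (P : Submodule ℂ D)
    (hP : ∀ P' : Submodule ℂ D, ξ ∈ P' → (∀ X ∈ F, ∀ v ∈ P', X v ∈ P') → P ≤ P') (v : D)
    (hv : v ∈ P) : Z (v : Completion D) = (v : Completion D) := by
  set P' : Submodule ℂ D :=
    { carrier := {v | Z (v : Completion D) = (v : Completion D)}
      add_mem' := fun {a b} ha hb => by
        show Z ((a + b : D) : Completion D) = ((a + b : D) : Completion D)
        rw [Completion.coe_add, map_add, ha, hb]
      zero_mem' := by
        show Z ((0 : D) : Completion D) = ((0 : D) : Completion D)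
        rw [Completion.coe_zero, map_zero]
      smul_mem' := fun c {a} ha => by
        show Z ((c • a : D) : Completion D) = ((c • a : D) : Completion D)
        rw [Completion.coe_smul, map_smul, ha] } with hP'
  refine hP P' hξ (fun X hX v hv => ?_) hv
  obtain ⟨X', hX', hXX'⟩ := hadj X hX
  exact prod_fix M ξ Z hZ hZM hξ hd X X' hXX' (hF X hX) (h1 X' hX') v hv

end Vale.Agent.P352.BW

end
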